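import Vale.Agent.Lib.P348.helper23.Basics

/-!
# P348 pool job K5 (helper91, second copy): the diagonal entry of the ring Hamiltonian at the
alternating configuration
-/

namespace Vale.Agent.Lib.P348.H91

open Matrix

open Vale.Agent.Lib.P361 Vale.Agent.Lib.P348

/-- Diagonal entry of a product of two one-site operators at distinct sites. -/
theorem siteOp_mul_diag {Λ : Type*} [Fintype Λ] [DecidableEq Λ] {d : ℕ} {x y : Λ} (hxy : x ≠ y)
    (a b : Matrix (Fin d) (Fin d) ℂ) (σ : Λ → Fin d) :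
    (siteOp x a * siteOp y b) σ σ = a (σ x) (σ x) * b (σ y) (σ y) := by
  rw [Matrix.mul_apply, Finset.sum_eq_single σ]
  · show (if ∀ z, z ≠ x → σ z = σ z then a (σ x) (σ x) else 0) *
      (if ∀ z, z ≠ y → σ z = σ z then b (σ y) (σ y) else 0) = a (σ x) (σ x) * b (σ y) (σ y)
    rw [if_pos (fun _ _ => rfl), if_pos (fun _ _ => rfl)]
  · intro τ _ hτ
    show (if ∀ z, z ≠ x → σ z = τ z then a (σ x) (τ x) else 0) *
      (if ∀ z, z ≠ y → τ z = σ z then b (τ y) (σ y) else 0) = 0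
    by_cases h1 : ∀ z, z ≠ x → σ z = τ z
    · by_cases h2 : ∀ z, z ≠ y → τ z = σ z
      · exfalso
        apply hτ
        funext z
        by_cases hz : z = x
        · subst hz
          exact h2 z hxy
        · exact (h1 z hz).symm
      · rw [if_neg h2, mul_zero]
    · rw [if_neg h1, zero_mul]
  · intro h
    exact absurd (Finset.mem_univ σ) h

theorem spinPlus_diag (d : ℕ) (i : Fin d) : spinPlus d i i = 0 := by
  show (if (i : ℕ) = (i : ℕ) + 1 then
    ((Real.sqrt ((((i : ℕ) : ℝ) + 1) * ((d : ℝ) - 1 - ((i : ℕ) : ℝ))) : ℝ) : ℂ) else 0) = 0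
  rw [if_neg (by omega)]

theorem spinMinus_diag (d : ℕ) (i : Fin d) : spinMinus d i i = 0 := by
  show (spinPlus d)ᴴ i i = 0
  rw [Matrix.conjTranspose_apply, spinPlus_diag, star_zero]

theorem spinX_diag (d : ℕ) (i : Fin d) : spinX d i i = 0 := by
  show ((1 / 2 : ℂ) • (spinPlus d + spinMinus d)) i i = 0
  rw [Matrix.smul_apply, Matrix.add_apply, spinPlus_diag, spinMinus_diag, add_zero, smul_zero]

theorem spinY_diag (d : ℕ) (i : Fin d) : spinY d i i = 0 := by
  show ((1 / (2 * Complex.I) : ℂ) • (spinPlus d - spinMinus d)) i i = 0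
  rw [Matrix.smul_apply, Matrix.sub_apply, spinPlus_diag, spinMinus_diag, sub_zero, smul_zero]

theorem spinZ_three_zero : spinZ 3 (0 : Fin 3) 0 = 1 := by
  show (diagonal (fun i : Fin 3 => (((((3 : ℕ) : ℝ) - 1) / 2 - ((i : ℕ) : ℝ) : ℝ) : ℂ))) 0 0 = 1
  rw [Matrix.diagonal_apply_eq]
  norm_num

theorem spinZ_three_two : spinZ 3 (2 : Fin 3) 2 = -1 := by
  show (diagonal (fun i : Fin 3 => (((((3 : ℕ) : ℝ) - 1) / 2 - ((i : ℕ) : ℝ) : ℝ) : ℂ))) 2 2 = -1
  rw [Matrix.diagonal_apply_eq]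
  norm_num

theorem neel_diag (L : ℕ) (hL : Even L) (hL2 : 2 ≤ L) :
    ∃ σ : Fin L → Fin 3, ringH L σ σ = -(L : ℂ) := by
  obtain ⟨n, rfl⟩ : ∃ n, L = n + 1 := ⟨L - 1, by omega⟩
  obtain ⟨r, hr⟩ := hL
  refine ⟨fun j => if j.val % 2 = 0 then 0 else 2, ?_⟩
  rw [defs_aux_ringH, Matrix.sum_apply]
  have hterm : ∀ j : Fin (n + 1),
      spinDot 3 j (finRotate (n + 1) j) (fun j : Fin (n + 1) => if j.val % 2 = 0 then 0 else 2)
        (fun j : Fin (n + 1) => if j.val % 2 = 0 then 0 else 2) = -1 := by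
    intro j
    have hyv : ((finRotate (n + 1) j : Fin (n + 1)) : ℕ) =
        if j = Fin.last n then 0 else (j : ℕ) + 1 := coe_finRotate j
    have hpar : ((finRotate (n + 1) j : Fin (n + 1)) : ℕ) % 2 = 0 ↔ ¬ ((j : ℕ) % 2 = 0) := by
      rw [hyv]
      by_cases hj : j = Fin.last n
      · rw [if_pos hj]
        have : (j : ℕ) = n := by rw [hj]; rfl
        omega
      · rw [if_neg hj]
        omega
    have hne : j ≠ finRotate (n + 1) j := by
      intro h
      have h' : (j : ℕ) = ((finRotate (n + 1) j : Fin (n + 1)) : ℕ) := congrArg Fin.val h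
      rw [← h'] at hpar
      tauto
    show (siteOp j (spinX 3) * siteOp (finRotate (n + 1) j) (spinX 3) +
      siteOp j (spinY 3) * siteOp (finRotate (n + 1) j) (spinY 3) +
      siteOp j (spinZ 3) * siteOp (finRotate (n + 1) j) (spinZ 3)) _ _ = -1
    rw [Matrix.add_apply, Matrix.add_apply, siteOp_mul_diag hne, siteOp_mul_diag hne,
      siteOp_mul_diag hne, spinX_diag, spinY_diag, zero_mul, zero_mul, zero_add, zero_add]
    by_cases hj : (j : ℕ) % 2 = 0
    · have hy : ¬ (((finRotate (n + 1) j : Fin (n + 1)) : ℕ) % 2 = 0) := fun h => hpar.1 h hj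
      rw [if_pos hj, if_neg hy, spinZ_three_zero, spinZ_three_two]
      norm_num
    · have hy : ((finRotate (n + 1) j : Fin (n + 1)) : ℕ) % 2 = 0 := hpar.2 hj
      rw [if_neg hj, if_pos hy, spinZ_three_zero, spinZ_three_two]
      norm_num
  rw [Finset.sum_congr rfl (fun j _ => hterm j), Finset.sum_const, Finset.card_univ,
    Fintype.card_fin]
  simp

end Vale.Agent.Lib.P348.H91
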